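import Mathlib

/-!
# P260: universal covers and aspherical spaces
-/

namespace Vale.Agent.P260U2

/-- `p : E → M` is a universal cover of `M`: a covering map onto `M` from a simply connected
space. -/
def IsUniversalCover {E M : Type} [TopologicalSpace E] [TopologicalSpace M] (p : E → M) : Prop :=
  IsCoveringMap p ∧ Function.Surjective p ∧ SimplyConnectedSpace E

/-- `M` has a universal cover, and every universal cover of `M` is contractible. -/
def Aspherical (M : Type) [TopologicalSpace M] : Prop :=
  (∃ (E : Type) (_ : TopologicalSpace E) (p : E → M), IsUniversalCover p) ∧
    ∀ (E : Type) [TopologicalSpace E] (p : E → M), IsUniversalCover p → ContractibleSpace E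

/-- `M` is a closed connected topological four-manifold. -/
def IsClosedFourManifold (M : Type) [TopologicalSpace M] : Prop :=
  T2Space M ∧ SecondCountableTopology M ∧ CompactSpace M ∧ ConnectedSpace M ∧
    Nonempty (ChartedSpace (EuclideanSpace ℝ (Fin 4)) M)

end Vale.Agent.P260U2
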