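import Vale.Agent.P260U2.Defs

/-!
# P260: uniqueness of the universal cover, and the homotopy groups of an aspherical space
-/

namespace Vale.Agent.P260U2

open unitInterval Topology ContinuousMap

variable {E E' M N : Type} [TopologicalSpace E] [TopologicalSpace E'] [TopologicalSpace M]
  [TopologicalSpace N]

theorem lpc [LocallyPathConnectedSpace M] {p : E → M} (h : IsLocalHomeomorph p) :
    LocallyPathConnectedSpace E := by
  choose e he _ using h
  let _ : ChartedSpace M E := ⟨Set.range e, e, he, fun x => ⟨x, rfl⟩⟩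
  exact ChartedSpace.locallyPathConnectedSpace M E

theorem homeo [LocallyPathConnectedSpace M] {p : E → M} {q : E' → M} (hp : IsUniversalCover p)
    (hq : IsUniversalCover q) : Nonempty (E ≃ₜ E') := by
  have := hp.2.2
  have := hq.2.2
  have := lpc hp.1.isLocalHomeomorph
  have := lpc hq.1.isLocalHomeomorph
  obtain ⟨a⟩ : Nonempty E := inferInstance
  obtain ⟨b, hb⟩ := hq.2.1 (p a)
  obtain ⟨F, ⟨F0, hF⟩, -⟩ := hq.1.existsUnique_continuousMap_lifts ⟨p, hp.1.continuous⟩ a b hb
  obtain ⟨G, ⟨G0, hG⟩, -⟩ :=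
    hp.1.existsUnique_continuousMap_lifts ⟨q, hq.1.continuous⟩ b a hb.symm
  have h1 : G ∘ F = id := hp.1.eq_of_comp_eq (G.continuous.comp F.continuous) continuous_id
    (by rw [← Function.comp_assoc, hG]; exact hF) a (by simp [F0, G0])
  have h2 : F ∘ G = id := hq.1.eq_of_comp_eq (F.continuous.comp G.continuous) continuous_id
    (by rw [← Function.comp_assoc, hF]; exact hG) b (by simp [F0, G0])
  exact ⟨⟨⟨F, G, congrFun h1, congrFun h2⟩, F.continuous, G.continuous⟩⟩

theorem aspherical [LocallyPathConnectedSpace M] {p : E → M} (h1 : IsCoveringMap p)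
    (h2 : Function.Surjective p) (h3 : ContractibleSpace E) : Aspherical M := by
  have h : IsUniversalCover p := ⟨h1, h2, inferInstance⟩
  refine ⟨⟨E, _, p, h⟩, fun E' _ q hq => ?_⟩
  obtain ⟨e⟩ := homeo hq h
  exact e.contractibleSpace

/-- Stretching of the interval. -/
noncomputable def st (s t : I) : I := Set.projIcc 0 1 zero_le_one ((1 + s) * t - s / 2)

/-- A function vanishing at the ends and equal to one on the middle half. -/
noncomputable def bu (t : I) : I := Set.projIcc 0 1 zero_le_one (4 * min (t : ℝ) (1 - t))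

theorem st_cont : Continuous fun z : I × I => st z.1 z.2 :=
  continuous_projIcc.comp (by fun_prop)

theorem bu_cont : Continuous bu := continuous_projIcc.comp (by fun_prop)

theorem st_end {s t : I} (h : t = 0 ∨ t = 1) : st s t = 0 ∨ st s t = 1 := by
  rcases h with rfl | rfl
  · exact .inl (Set.projIcc_of_le_left _ (by simpa using by linarith [s.2.1]))
  · exact .inr (Set.projIcc_of_right_le _ (by simpa using by linarith [s.2.1]))

theorem bu_end {t : I} (h : t = 0 ∨ t = 1) : bu t = 0 := by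
  rcases h with rfl | rfl <;> exact Set.projIcc_of_le_left _ (by simp)

theorem st_one {t : I} (h : bu t ≠ 1) : st 1 t = 0 ∨ st 1 t = 1 := by
  have h1 : 4 * min (t : ℝ) (1 - t) < 1 := not_le.1 fun h1 => h (Set.projIcc_of_right_le _ h1)
  rcases min_cases (t : ℝ) (1 - t) with ⟨h2, -⟩ | ⟨h2, -⟩ <;> rw [h2] at h1
  · exact .inl (Set.projIcc_of_le_left _ (by rw [Set.Icc.coe_one]; linarith))
  · exact .inr (Set.projIcc_of_right_le _ (by rw [Set.Icc.coe_one]; linarith))

theorem null {n : ℕ} [ContractibleSpace E] (Γ : C(Fin n → I, E)) (e : E)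
    (h : ∀ y ∈ Cube.boundary (Fin n), Γ y = e) :
    Γ.HomotopicRel (.const _ e) (Cube.boundary (Fin n)) := by
  obtain ⟨c, ⟨H⟩⟩ := id_nullhomotopic E
  have hφ : Continuous fun y : Fin n → I => ∏ i, bu (y i) :=
    continuous_finsetProd _ fun i _ => bu_cont.comp (continuous_apply i)
  have h0 : ∀ y ∈ Cube.boundary (Fin n), ∏ i, bu (y i) = 0 := fun y ⟨i, hi⟩ =>
    Finset.prod_eq_zero (Finset.mem_univ i) (bu_end hi)
  let K : C(Fin n → I, E) := ⟨fun y => H (∏ i, bu (y i), e), by fun_prop⟩
  have hK : HomotopicRel (.const _ e) K (Cube.boundary (Fin n)) :=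
    ⟨⟨⟨⟨fun z : I × (Fin n → I) => H (z.1 * ∏ i, bu (z.2 i), e), H.continuous.comp
      ((continuous_fst.mul (hφ.comp continuous_snd)).prodMk continuous_const)⟩,
      fun y => by simp, fun y => by simp [K]⟩, fun s y hy => by simp [h0 y hy]⟩⟩
  refine HomotopicRel.trans ⟨⟨⟨⟨fun z : I × (Fin n → I) => H (z.1 * ∏ i, bu (z.2 i),
      Γ fun i => st z.1 (z.2 i)), ?_⟩, fun y => ?_, fun y => ?_⟩, fun s y hy => ?_⟩⟩ hK.symm
  · exact H.continuous.comp ((continuous_fst.mul (hφ.comp continuous_snd)).prodMk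
      (Γ.continuous.comp (continuous_pi fun i => st_cont.comp
        (continuous_fst.prodMk ((continuous_apply i).comp continuous_snd)))))
  · simp [st]
  · by_cases h1 : ∀ i, bu (y i) = 1
    · simp [K, h1]
    · obtain ⟨i, hi⟩ := not_forall.1 h1
      simp [K, h (fun i => st 1 (y i)) ⟨i, st_one hi⟩]
  · obtain ⟨i, hi⟩ := id hy
    simp [h0 y hy, h y hy, h (fun i => st s (y i)) ⟨i, st_end hi⟩]

theorem pi_triv {p : E → M} (h1 : IsCoveringMap p) (h2 : Function.Surjective p)
    [ContractibleSpace E] {n : ℕ} (hn : 2 ≤ n) (x : M) : Subsingleton (π_ n M x) := by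
  obtain ⟨e, rfl⟩ := h2 x
  have := Fin.nontrivial_iff_two_le.2 hn
  suffices h : ∀ γ : GenLoop (Fin n) M (p e), GenLoop.Homotopic γ GenLoop.const from
    ⟨fun a b => Quotient.inductionOn₂ a b fun a b => Quotient.sound ((h a).trans (h b).symm)⟩
  intro γ
  obtain ⟨i₀⟩ : Nonempty (Fin n) := inferInstance
  let H : C(I × (Fin n → I), M) := γ.1.comp ⟨fun z i => z.1 * z.2 i, by fun_prop⟩
  have H0 : ∀ y, H (0, y) = p (ContinuousMap.const _ e y) := fun y =>
    γ.2 _ ⟨i₀, .inl (zero_mul _)⟩
  let Γ : C(Fin n → I, E) := (h1.liftHomotopy H _ H0).comp ⟨fun y => (1, y), by fun_prop⟩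
  have hΓ : ∀ y, p (Γ y) = γ y := fun y =>
    (congrFun (h1.liftHomotopy_lifts H _ H0) (1, y)).trans (by simp [H])
  have face : ∀ (i : Fin n) (t : I), t = 0 ∨ t = 1 → ∀ y y' : Fin n → I,
      Γ (Function.update y i t) = Γ (Function.update y' i t) := fun i t ht =>
    h1.const_of_comp (g := fun y => Γ (Function.update y i t))
      (Γ.continuous.comp (continuous_id.update i continuous_const)) fun y y' => by
        rw [hΓ, hΓ, GenLoop.boundary γ _ ⟨i, by rwa [Function.update_self]⟩,
          GenLoop.boundary γ _ ⟨i, by rwa [Function.update_self]⟩]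
  have hb : ∀ y ∈ Cube.boundary (Fin n), Γ y = Γ 0 := fun y ⟨i, hi⟩ => by
    obtain ⟨j, hj⟩ := exists_ne i
    have h3 := face j 0 (.inl rfl) (Function.update 0 i (y i)) 0
    rw [Function.update_eq_self_iff.2 (by rw [Function.update_of_ne hj]; rfl),
      show Function.update (0 : Fin n → I) j 0 = 0 from Function.update_eq_self j 0] at h3
    rw [← h3, ← face i (y i) hi y 0, Function.update_eq_self]
  have h4 := (null Γ (Γ 0) hb).comp_continuousMap ⟨p, h1.continuous⟩
  have h5 : p (Γ 0) = p e := (hΓ 0).trans (γ.2 _ ⟨i₀, .inl rfl⟩)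
  rwa [show ContinuousMap.comp ⟨p, h1.continuous⟩ Γ = γ.1 from ContinuousMap.ext hΓ,
    show ContinuousMap.comp ⟨p, h1.continuous⟩ (.const _ (Γ 0)) = (GenLoop.const (x := p e)).1 from
      ContinuousMap.ext fun y => h5] at h4

theorem pi_one [PathConnectedSpace N] (f : M ≃ₕ N) (x : M) (y : N) :
    Nonempty (FundamentalGroup M x ≃* FundamentalGroup N y) :=
  have e : FundamentalGroup M x ≃* FundamentalGroup N (f x) :=
    (FundamentalGroupoidFunctor.equivOfHomotopyEquiv f).fullyFaithfulFunctor.mulEquivEnd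
      (FundamentalGroupoid.mk x)
  ⟨e.trans (FundamentalGroup.fundamentalGroupMulEquivOfPathConnected (f x) y)⟩

theorem pack [ChartedSpace (EuclideanSpace ℝ (Fin 4)) M] [T2Space M] [CompactSpace M]
    [ConnectedSpace M] (h : ∃ (E : Type) (_ : TopologicalSpace E) (p : E → M),
      IsCoveringMap p ∧ Function.Surjective p ∧ ContractibleSpace E) :
    (IsClosedFourManifold M ∧ Aspherical M ∧ ∀ n ≥ 2, ∀ x, Subsingleton (π_ n M x)) ∧
      PathConnectedSpace M := by
  obtain ⟨E, _, p, h1, h2, h3⟩ := h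
  have := ChartedSpace.locallyPathConnectedSpace (EuclideanSpace ℝ (Fin 4)) M
  exact ⟨⟨⟨inferInstance,
    ChartedSpace.secondCountable_of_sigmaCompact (EuclideanSpace ℝ (Fin 4)) M, inferInstance,
    inferInstance, ⟨inferInstance⟩⟩, aspherical h1 h2 h3, fun n hn => pi_triv h1 h2 hn⟩,
    .of_locallyPathConnectedSpace⟩

end Vale.Agent.P260U2
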